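import Vale.Agent.P092TO.Nu

/-!
The spectral projectors of a matrix according to an additive function of the eigenvalues.
-/

set_option linter.all false

open Module Polynomial Matrix Vale.Agent.P092AG Vale.Agent.P092TO

namespace Vale.Agent.P011IM

variable {k K : Type} [Field k] [Field K] [Algebra k K] [IsAlgClosed K] {n : ℕ} {φ : K → ℝ}

variable (k) in
/-- `φ` is additive and constant on the conjugacy classes -/
structure Lg (φ : K → ℝ) : Prop where
  one : φ 1 = 0
  mul : ∀ a b, a ≠ 0 → b ≠ 0 → φ (a * b) = φ a + φ b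
  irr : ∀ {q : k[X]}, Irreducible q → ∀ {a b : K}, aeval a q = 0 → aeval b q = 0 → φ a = φ b

variable (H : Lg k φ)
include H

theorem exists_fact (f : k[X]) (hf : f ≠ 0) : ∃ (s : Finset ℝ) (F : ℝ → k[X]), s.Nonempty ∧
    f = ∏ l ∈ s, F l ∧ (∀ l ∉ s, F l = 1) ∧ ∀ l (a : K), aeval a (F l) = 0 → φ a = l := by
  classical
  induction f using WfDvdMonoid.induction_on_irreducible with
  | zero => exact (hf rfl).elim
  | unit u hu =>
    refine ⟨{0}, fun l => if l = 0 then u else 1, by simp, by simp, by simp +contextual,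
      fun l a h => ?_⟩
    have : IsUnit (if l = 0 then u else 1) := by split_ifs; exacts [hu, isUnit_one]
    exact ((this.map (aeval a)).ne_zero h).elim
  | mul f q h0 hq ih =>
    obtain ⟨s, F, -, h1, h2, h3⟩ := ih h0
    obtain ⟨b, hb⟩ := IsAlgClosed.exists_aeval_eq_zero K q (degree_pos_of_irreducible hq).ne'
    refine ⟨insert (φ b) s, fun l => (if l = φ b then q else 1) * F l, by simp,
      ?_, fun l hl => ?_, fun l a h => ?_⟩
    · rw [Finset.prod_mul_distrib, Finset.prod_ite_eq', if_pos (by simp),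
        Finset.prod_insert_of_eq_one_if_notMem (h2 _), ← h1]
    · rw [Finset.mem_insert, not_or] at hl
      simp [hl.1, h2 l hl.2]
    · rw [map_mul, mul_eq_zero] at h
      refine h.elim (fun h => ?_) (h3 l a)
      split_ifs at h with e
      · rw [e, H.irr hq h hb]
      · simp at h

theorem exists_proj (g : GL (Fin n) k) : ∃ (s : Finset ℝ) (F π : s → k[X]),
    (∀ i (a : K), aeval a (F i) = 0 → a ≠ 0 ∧ φ a = i) ∧
    ∑ i, aeval (g : Mt n k) (π i) = 1 ∧ (∀ i, aeval (g : Mt n k) (F i * π i) = 0) ∧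
    ∀ i j, i ≠ j → aeval (g : Mt n k) (π i * π j) = 0 := by
  classical
  obtain ⟨s, F, h0, h1, -, h3⟩ := exists_fact H _ (g : Mt n k).charpoly_monic.ne_zero
  have := h0.to_subtype
  obtain ⟨μ, hμ⟩ := (exists_sum_eq_one_iff_pairwise_coprime' (s := fun i : s => F i)).2
    fun i j hij => (isCoprime_iff_aeval_ne_zero_of_isAlgClosed k K _ _).2 fun a => by
      by_contra h
      rw [not_or, not_not, not_not] at h
      exact hij (Subtype.ext ((h3 _ _ h.1).symm.trans (h3 _ _ h.2)))
  have h4 : ∀ i : s, aeval (g : Mt n k) (F i * (μ i * ∏ j ∈ {i}ᶜ, F j)) = 0 := fun i => by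
    rw [mul_left_comm, ← Fintype.prod_eq_mul_prod_compl i fun j : s => F j, Finset.prod_coe_sort,
      ← h1, map_mul, aeval_self_charpoly, mul_zero]
  refine ⟨s, fun i => F i, fun i => μ i * ∏ j ∈ {i}ᶜ, F j, fun i a h => ⟨?_, h3 _ _ h⟩,
    by rw [← map_sum, hμ, map_one], h4, fun i j hij => ?_⟩
  · rintro rfl
    have h5 : aeval (0 : K) (g : Mt n k).charpoly = 0 :=
      aeval_eq_zero_of_dvd_aeval_eq_zero (h1 ▸ Finset.dvd_prod_of_mem _ i.2) h
    rw [← coeff_zero_eq_aeval_zero', map_eq_zero] at h5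
    have h6 := (g : Mt n k).det_eq_sign_charpoly_coeff
    rw [h5, mul_zero] at h6
    exact g.det_ne_zero h6
  · obtain ⟨r, hr⟩ := Finset.dvd_prod_of_mem (fun j : s => F j) (s := {i}ᶜ) (a := j)
      (by simpa using hij.symm)
    beta_reduce
    rw [hr, show ∀ u, μ i * (F j * r) * u = μ i * r * (F j * u) from fun u => by ring, map_mul, h4,
      mul_zero]

/-- polynomials vanishing on the powers of `g` vanish on the twisted sums of the projectors -/
theorem hyp0 {ι : Type} [Fintype ι] (g : Mt n k) (Λ : Submodule ℤ ℝ) (lam : ι → Λ) (F : ι → k[X])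
    (E : ι → Mt n k) (hF : ∀ i (a : K), aeval a (F i) = 0 → a ≠ 0 ∧ φ a = lam i)
    (h1 : ∑ i, E i = 1) (h2 : ∀ i, aeval g (F i) * E i = 0) (l : Λ →+ ℤ) (t : kˣ) (p : Pl n k)
    (hp : ∀ j : ℕ, ev (g ^ j) p = 0) : ev (∑ i, ((t ^ l (lam i) : kˣ) : k) • E i) p = 0 := by
  let ψ : Mt n k →ₐ[k] Mt n K := (Algebra.ofId k K).mapMatrix
  have hψ : ∀ x a b, ψ x a b = algebraMap k K (x a b) := fun _ _ _ => rfl
  have := core (T := LinearMap.funLeft K K Nat.succ) (fun _ _ => rfl) rfl
    (fun (m : Λ) (a : K) => a ≠ 0 ∧ φ a = m) ⟨one_ne_zero, H.one⟩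
    (fun l m a b ha hb => ⟨mul_ne_zero ha.1 hb.1, by
      rw [H.mul a b ha.1 hb.1, ha.2, hb.2]
      rfl⟩) (fun l m a ha hb => Subtype.ext (ha.2.symm.trans hb.2))
    (fun m => algebraMap k K ((t ^ l m : kˣ) : k)) (by simp) (fun a b => by simp [zpow_add₀])
    (Pi.evalAlgHom K (fun _ => K) 0) lam (fun (v : Fin n × Fin n) i j => ψ (g ^ j * E i) v.1 v.2)
    (fun v i => ?_) (MvPolynomial.map (algebraMap k K) p) ?_
  · refine (algebraMap k K).injective ?_
    rw [← ev_map, map_zero, ← this]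
    simp [hψ, Matrix.sum_apply]
  · have h3 : In (Algebra.lmul K _ (ψ g)) (fun a => a ≠ 0 ∧ φ a = lam i) (ψ (E i)) := by
      refine In.of_poly (q := (F i).map (algebraMap k K)) (Polynomial.map_ne_zero fun e => ?_)
        (fun a ha => hF i a (by rwa [← eval_map_algebraMap])) ?_
      · exact (hF i 0 (by rw [e, map_zero])).1 rfl
      · rw [aeval_algHom_apply, aeval_map_algebraMap, aeval_algHom_apply]
        exact (map_mul ψ _ _).symm.trans (by rw [h2, map_zero])
    let L : Mt n K →ₗ[K] ℕ → K := LinearMap.pi fun j =>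
      entryLinearMap K K v.1 v.2 ∘ₗ LinearMap.mulLeft K (ψ g ^ j)
    rw [show (fun j => ψ (g ^ j * E i) v.1 v.2) = L (ψ (E i)) by funext j; simp [L]]
    refine h3.map L fun x => funext fun j => ?_
    simp [L, LinearMap.funLeft, pow_succ, mul_assoc]
  · funext j
    refine (MvPolynomial.comp_aeval_apply _ (Pi.evalAlgHom K (fun _ => K) j) _).trans ?_
    have := ev_map (algebraMap k K) (g ^ j) p
    rw [hp, map_zero] at this
    rw [Pi.zero_apply, ← this, MvPolynomial.aeval_eq_eval]
    congr 3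
    funext v
    rw [map_sum, ← hψ, ← mul_one (g ^ j), ← h1, Finset.mul_sum, map_sum, Matrix.sum_apply]
    rfl

/-- the hyperbolic part of an element of a closed group -/
theorem hyp {G : Subgroup (GL (Fin n) k)} (hG : ZCl (G : Set (GL (Fin n) k))) {g : GL (Fin n) k}
    (hg : g ∈ G) : ∃ (c : GL (Fin n) k) (a : Fin n → ℝ), (∀ y, g ∈ Lgl y → c ∈ Lgl y) ∧
      (∀ (v : Fin n → K) (α : K), (g : Mt n k).map (algebraMap k K) *ᵥ v = α • v → ∀ j,
        (((c⁻¹ : GL (Fin n) k) : Mt n k).map (algebraMap k K) *ᵥ v) j ≠ 0 → φ α = a j) ∧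
      a ∈ Submodule.span ℝ ((fun y i => ((y i : ℤ) : ℝ)) '' {y | ∀ t, c * tor y t * c⁻¹ ∈ G}) := by
  classical
  obtain ⟨s, F, π, h1, h2, h3, h4⟩ := exists_proj H g
  simp only [map_mul] at h3 h4
  set E : s → Mt n k := fun i => aeval (g : Mt n k) (π i) with hE
  obtain ⟨a, ha⟩ := exists_diag E h2
  let c : GL (Fin n) k := GeneralLinearGroup.mkOfDetNeZero _ ha
  have hc : ∀ r j, (c : Mt n k) r j = E (a j) r j := fun _ _ => rfl
  have h5 : ∀ i, E i * E i = E i := fun i => by
    conv_rhs => rw [← mul_one (E i), ← h2, Finset.mul_sum,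
      Finset.sum_eq_single i (fun j _ hj => h4 i j hj.symm) (by simp)]
  have h6 : ∀ i, E i * c.val = c.val * diagonal fun j => if a j = i then 1 else 0 := fun i => by
    ext r j
    rw [mul_diagonal, hc]
    refine (show _ = (E i * E (a j)) r j from rfl).trans ?_
    split_ifs with e
    · rw [← e, h5, mul_one]
    · rw [h4 _ _ (Ne.symm e), mul_zero, Matrix.zero_apply]
  refine ⟨c, fun j => a j, fun y hy r j hr => isL_aeval hy _ r j hr, fun v α hv j hj => ?_, ?_⟩
  · let ψ : Mt n k →ₐ[k] Mt n K := (Algebra.ofId k K).mapMatrix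
    change ψ g *ᵥ v = _ at hv
    change (ψ (c⁻¹ : GL (Fin n) k) *ᵥ v) j ≠ 0 at hj
    refine (h1 _ _ ?_).2
    have h7 : ∀ q : k[X], ψ (aeval (g : Mt n k) q) *ᵥ v = aeval α q • v := fun q => by
      induction q using Polynomial.induction_on with
      | C b => simp [Algebra.algebraMap_eq_smul_one, smul_mulVec]
      | add p q hp hq => simp only [map_add, add_mulVec, add_smul, hp, hq]
      | monomial m b ih =>
        rw [pow_succ, ← mul_assoc, map_mul, map_mul, aeval_X, ← mulVec_mulVec, hv, mulVec_smul, ih,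
          map_mul (aeval α) _ X, aeval_X, smul_smul, mul_comm]
    have h8 : aeval α (F (a j)) • (ψ (E (a j)) *ᵥ v) = 0 := by
      rw [← mulVec_smul, ← h7, mulVec_mulVec, ← map_mul, ← map_mul, mul_comm, map_mul, h3, map_zero,
        zero_mulVec]
    refine (smul_eq_zero.1 h8).resolve_right fun e => hj ?_
    have h9 : ((c⁻¹ : GL (Fin n) k) : Mt n k) * E (a j) =
        diagonal (fun r => if a r = a j then 1 else 0) * (c⁻¹ : GL (Fin n) k).val := by
      rw [Units.inv_mul_eq_iff_eq_mul, ← mul_assoc, ← h6, Units.mul_inv_cancel_right]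
    have := congrArg (fun x => (ψ x *ᵥ v) j) h9
    simp only [map_mul, ← mulVec_mulVec, e, mulVec_zero] at this
    rw [show ψ (diagonal _) = diagonal _ from diagonal_map (map_zero _), mulVec_diagonal] at this
    simpa using this.symm
  · let Λ : Submodule ℤ ℝ := Submodule.span ℤ (Set.range fun i : s => (i : ℝ))
    let lam : s → Λ := fun i => ⟨i, Submodule.subset_span ⟨i, rfl⟩⟩
    have : Module.Finite ℤ Λ := Module.Finite.span_of_finite _ (Set.finite_range _)
    let b := Module.Free.chooseBasis ℤ Λ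
    have e : (fun j => (a j : ℝ)) = ∑ i, (b i : ℝ) • fun j => (b.coord i (lam (a j)) : ℝ) := by
      funext j
      have := congrArg Subtype.val (b.sum_repr (lam (a j)))
      rw [Submodule.coe_sum] at this
      refine this.symm.trans ?_
      simp [mul_comm]
    rw [e]
    refine sum_mem fun i _ => Submodule.smul_mem _ _ (Submodule.subset_span
      ⟨fun j => b.coord i (lam (a j)), fun t => hG _ fun p hp => ?_, rfl⟩)
    have := hyp0 H (g : Mt n k) Λ lam F E h1 h2 h3 (b.coord i).toAddMonoidHom t p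
      fun j => by simpa using hp _ (G.pow_mem hg j)
    convert this using 3
    rw [Units.val_mul, Units.val_mul, Units.mul_inv_eq_iff_eq_mul, Finset.sum_mul]
    simp only [smul_mul_assoc, h6, ← mul_smul_comm, ← Finset.mul_sum]
    congr 1
    ext r j
    by_cases e : r = j <;> simp [tor, Matrix.sum_apply, diagonal_apply, e]

/-- a torus of maximal rank is a maximal split torus -/
theorem max_of_rank {G : Subgroup (GL (Fin n) k)} (hG : ZCl (G : Set (GL (Fin n) k)))
    (h : ∀ c, finrank ℝ (YR (cj c G)) ≤ finrank ℝ (YR G)) {z : GL (Fin n) k} (hz : z ∈ Zc G) :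
    ∃ ν ∈ YR G, ∀ (i : Fin n) (c : K) (v : Fin n → K), v ≠ 0 → (∀ j, ¬Sim G i j → v j = 0) →
      (z : Mt n k).map (algebraMap k K) *ᵥ v = c • v → φ c = ν i := by
  rw [mem_Zc] at hz
  obtain ⟨c, a, h1, h2, h3⟩ := hyp H hG hz.1
  have h4 : YR G = YR (cj c⁻¹ G) := Submodule.eq_of_le_of_finrank_le
    (Submodule.span_mono (Set.image_mono fun y hy t => mem_cj.2 (by
      rw [inv_inv, ← comm_tor (h1 y (hz.2 y hy)), mul_inv_cancel_right]; exact hy t))) (h _)
  have h5 : a ∈ YR G := by
    rw [h4]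
    refine Submodule.span_mono (Set.image_mono ?_) h3
    exact fun y hy t => mem_cj.2 (hy t)
  refine ⟨a, h5, ?_⟩
  intro i α v h0 h6 hv
  have h7 : c⁻¹.val.map (algebraMap k K) *ᵥ v ≠ 0 := fun e => by
    have := congrArg (c.val.map (algebraMap k K) *ᵥ ·) e
    simp only [mulVec_mulVec, ← Matrix.map_mul, Units.mul_inv, mulVec_zero] at this
    exact h0 (by simpa using this)
  obtain ⟨j, hj⟩ := Function.ne_iff.1 h7
  rw [h2 v α hv j hj]
  obtain ⟨l, -, hl⟩ := Finset.exists_ne_zero_of_sum_ne_zero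
    (show ∑ l, c⁻¹.val.map (algebraMap k K) j l * v l ≠ 0 from hj)
  have h8 : ∀ y ∈ Y G, y j = y i := fun y hy => by
    have h9 : y i = y l := (not_not.1 (mt (h6 l) (right_ne_zero_of_mul hl)) : Sim G i l) y hy
    by_contra e
    refine left_ne_zero_of_mul hl ?_
    rw [map_apply, (Lgl y).inv_mem (h1 y (hz.2 y hy)) j l (h9 ▸ e), map_zero]
  refine Submodule.span_induction (p := fun x _ => x j = x i) ?_ rfl
    (fun x y _ _ e e' => by simp [e, e']) (fun b x _ e => by simp [e]) h5
  rintro _ ⟨y, hy, rfl⟩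
  exact congrArg Int.cast (h8 y hy)

end Vale.Agent.P011IM
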