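import Vale.Agent.P011IM.Hyp
import Vale.Agent.P011IT.Trf
import Vale.Agent.P092AG.H1
import Mathlib.Algebra.Category.Grp.Injective
import Mathlib.FieldTheory.PurelyInseparable.Basic
import Mathlib.Analysis.Normed.Field.Ultra
import Mathlib.Analysis.Normed.Ring.Ultra

/-!
Eigenvalues on the centraliser of a torus of maximal rank.
-/

set_option linter.all false

open Module Polynomial Matrix Vale.Agent.P092AG Vale.Agent.P092TO Vale.Agent.P092A2

namespace Vale.Agent.P011IM

section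

variable {k K : Type} [Field k] [Field K] [Algebra k K] {n : ℕ}

theorem root_eq [IsPurelyInseparable k K] {q : k[X]} (hq : Irreducible q) {a b : K}
    (ha : aeval a q = 0) (hb : aeval b q = 0) : a = b := by
  obtain ⟨m, hm⟩ := IsPurelyInseparable.minpoly_eq_X_sub_C_pow k (ringExpChar k) a
  have h1 : aeval b (minpoly k a) = 0 := by
    rw [← minpoly.eq_of_irreducible hq ha, minpoly.eq_of_irreducible hq hb, minpoly.aeval]
  rw [← eval_map_algebraMap, hm, eval_pow, eval_sub, eval_X, eval_C] at h1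
  exact (sub_eq_zero.1 (pow_eq_zero_iff (expChar_pow_pos k _ _).ne' |>.1 h1)).symm

theorem tors [IsAlgClosed K] [IsPurelyInseparable k K] {G : Subgroup (GL (Fin n) k)}
    (hG : ZCl (G : Set (GL (Fin n) k)))
    (h : ∀ c, finrank ℝ (YR (cj c G)) ≤ finrank ℝ (YR G)) {z : GL (Fin n) k} (hz : z ∈ Zc G)
    {ι : Type} [Fintype ι] (cl : ι → Fin n) (c : ι → Kˣ) (m : ι → ℤ)
    (hc : ∀ a, ∃ v : Fin n → K, v ≠ 0 ∧ (∀ j, ¬Sim G (cl a) j → v j = 0) ∧
      (z : Mt n k).map (algebraMap k K) *ᵥ v = (c a : K) • v)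
    (hm : ∀ y ∈ Y G, ∑ a, m a * y (cl a) = 0) : IsOfFinOrder (∏ a, c a ^ m a) := by
  classical
  by_contra hn
  obtain ⟨f, hf⟩ := (Module.Baer.of_divisible ℝ).extension_property_addMonoidHom
    (zmultiplesHom (Additive Kˣ) (.ofMul (∏ a, c a ^ m a)))
    (injective_zpow_iff_not_isOfFinOrder.2 hn) (Int.castAddHom ℝ)
  let φ : K → ℝ := fun a => if h : a = 0 then 0 else f (.ofMul (Units.mk0 a h))
  have e : ∀ u : Kˣ, φ u = f (.ofMul u) := fun u => by simp [φ]
  have H : Lg k φ := ⟨(e 1).trans (map_zero f), fun a b ha hb => by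
    have := e (Units.mk0 a ha * Units.mk0 b hb)
    rw [ofMul_mul, map_add, ← e, ← e] at this
    exact this, fun hq a b ha hb => by rw [root_eq hq ha hb]⟩
  obtain ⟨ν, h1, h2⟩ := max_of_rank H hG h hz
  have h3 : ∑ a, (m a : ℝ) * ν (cl a) = 0 := by
    refine Submodule.span_induction (p := fun ν _ => ∑ a, (m a : ℝ) * ν (cl a) = 0) ?_ (by simp)
      (fun x y _ _ e e' => by simp [mul_add, Finset.sum_add_distrib, e, e'])
      (fun b x _ e => by simp [mul_left_comm _ b, ← Finset.mul_sum, e]) h1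
    rintro _ ⟨y, hy, rfl⟩
    show ∑ a, (m a : ℝ) * (y (cl a) : ℝ) = 0
    exact_mod_cast hm y hy
  have h4 := DFunLike.congr_fun hf 1
  simp only [AddMonoidHom.comp_apply, zmultiplesHom_apply, one_smul, ofMul_prod, ofMul_zpow, map_sum,
    map_zsmul, Int.coe_castAddHom, Int.cast_one, zsmul_eq_mul] at h4
  refine one_ne_zero (h4.symm.trans (Eq.trans (Finset.sum_congr rfl fun a _ => ?_) h3))
  obtain ⟨v, a1, a2, a3⟩ := hc a
  rw [← e, h2 _ _ v a1 a2 a3]

theorem span_of_orth (A : AddSubgroup (Fin n → ℤ)) (x : Fin n → ℝ)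
    (h : ∀ m : Fin n → ℤ, (∀ y ∈ A, ∑ j, m j * y j = 0) → ∑ j, (m j : ℝ) * x j = 0) :
    x ∈ Submodule.span ℝ ((fun y i => ((y i : ℤ) : ℝ)) '' (A : Set (Fin n → ℤ))) := by
  classical
  let W : Submodule ℚ (Fin n → ℚ) := Submodule.span ℚ ((fun y i => ((y i : ℤ) : ℚ)) '' (A : Set (Fin n → ℤ)))
  obtain ⟨P, hP⟩ := W.subtype.exists_leftInverse_of_injective (Submodule.ker_subtype _)
  have e1 : ∀ w : W, P w = w := fun w => LinearMap.congr_fun hP w
  let M : Fin n → Fin n → ℚ := fun j => P (Pi.single j 1)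
  have e2 : ∀ w : Fin n → ℚ, (P w).1 = ∑ j, w j • M j := fun w => by
    conv_lhs => rw [pi_eq_sum_univ' w]
    simp [M]
  have e3 : ∀ i, x i = ∑ j, x j * (M j i : ℝ) := fun i => by
    obtain ⟨N, hN⟩ := IsLocalization.exist_integer_multiples_of_finite (nonZeroDivisors ℤ)
      (fun j => M j i)
    choose d hd using hN
    have h0 : ((N : ℤ) : ℝ) ≠ 0 := Int.cast_ne_zero.2 (nonZeroDivisors.coe_ne_zero N)
    have k1 : ∀ j, (d j : ℚ) = (N : ℤ) * M j i := fun j => by simpa using hd j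
    have := h (d - Pi.single i N) fun y hy => by
      have a := congrFun ((e2 _).symm.trans (congrArg Subtype.val
        (e1 ⟨_, Submodule.subset_span ⟨y, hy, rfl⟩⟩))) i
      simp only [Finset.sum_apply, Pi.smul_apply, smul_eq_mul] at a
      refine Int.cast_injective (α := ℚ) ?_
      simp only [Pi.sub_apply, sub_mul, Finset.sum_sub_distrib, Pi.single_apply, ite_mul, zero_mul,
        Finset.sum_ite_eq', Finset.mem_univ, if_true]
      push_cast
      simp only [k1, mul_assoc, ← Finset.mul_sum, mul_comm (M _ i), a, sub_self]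
    simp only [Pi.sub_apply, Int.cast_sub, sub_mul, Finset.sum_sub_distrib, Pi.single_apply,
      Int.cast_ite, Int.cast_zero, ite_mul, zero_mul, Finset.sum_ite_eq', Finset.mem_univ,
      if_true] at this
    refine mul_left_cancel₀ h0 ((sub_eq_zero.1 this).symm.trans ?_)
    rw [Finset.mul_sum]
    refine Finset.sum_congr rfl fun j _ => ?_
    have : (d j : ℝ) = (N : ℤ) * (M j i : ℝ) := by exact_mod_cast k1 j
    rw [this]; ring
  rw [show x = ∑ j, x j • fun i => (M j i : ℝ) from funext fun i => by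
    simpa [Finset.sum_apply] using e3 i]
  refine sum_mem fun j _ => Submodule.smul_mem _ _ ?_
  refine Submodule.span_induction (p := fun w _ => (fun i => ((w i : ℚ) : ℝ)) ∈ Submodule.span ℝ
    ((fun y i => ((y i : ℤ) : ℝ)) '' (A : Set (Fin n → ℤ)))) ?_ ?_ (fun a b _ _ c d => ?_)
    (fun q a _ c => ?_) (P (Pi.single j 1)).2
  · rintro _ ⟨y, hy, rfl⟩
    exact Submodule.subset_span ⟨y, hy, funext fun i => by simp⟩
  · convert Submodule.zero_mem _ using 1; funext i; simp
  · convert add_mem c d using 1; funext i; simp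
  · convert Submodule.smul_mem _ (q : ℝ) c using 1; funext i; simp

variable {G : Subgroup (GL (Fin n) K)}

theorem zcl_pts (h : ZCl (G : Set (GL (Fin n) K))) : ZCl (pts k G : Set (GL (Fin n) k)) :=
  fun g hg => h _ fun p hp => by
  have : p ∈ van (io k K n '' pts k G) := by rintro _ ⟨x, hx, rfl⟩; exact hp _ hx
  rw [P011IT.van_io] at this
  refine (Ideal.map_le_iff_le_comap.2 fun q hq => ?_ : _ ≤ RingHom.ker _) this
  exact RingHom.mem_ker.2 (by rw [io_val, P092A2.ev_map, hg q hq, map_zero])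

theorem io_tor (y : Fin n → ℤ) (t : kˣ) :
    io k K n (tor y t) = tor y (Units.map (algebraMap k K).toMonoidHom t) := Units.ext (by
  rw [io_val, tor_val, tor_val, diagonal_map (map_zero _)]
  simp)

theorem Y_pts [Infinite k] (h : ZCl (G : Set (GL (Fin n) K))) : Y (pts k G) = Y G := by
  refine AddSubgroup.ext fun y => ⟨fun hy t => h _ fun p hp => ?_, fun hy t => ?_⟩
  swap
  · exact (io_tor (K := K) y t ▸ hy _ : io k K n (tor y t) ∈ G)
  have k1 : ∀ p : Pl n K, ∃ (N : ℕ) (q : K[X]), ∀ t : Kˣ,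
      (t : K) ^ N * ev (tor y t).1 p = q.eval (t : K) := fun p => by
    induction p using MvPolynomial.induction_on with
    | C c => exact ⟨0, C c, fun t => by simp [ev_C]⟩
    | add p q hp hq =>
      obtain ⟨N, a, ha⟩ := hp
      obtain ⟨M, b, hb⟩ := hq
      exact ⟨N + M, X ^ M * a + X ^ N * b, fun t => by simp [← ha, ← hb]; ring⟩
    | mul_X p e hp =>
      obtain ⟨N, a, ha⟩ := hp
      obtain ⟨i, j⟩ := e
      refine ⟨N + (-y i).toNat, if i = j then a * X ^ (y i).toNat else 0, fun t => ?_⟩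
      rw [map_mul, ev_X, tor_val]
      split_ifs with e
      · rw [← e, diagonal_apply_eq, eval_mul, ← ha, eval_pow, eval_X, tor_val, pow_add,
          ← Int.toNat_sub_toNat_neg (y i), zpow_sub₀ t.ne_zero, Int.toNat_sub_toNat_neg]
        simp only [zpow_natCast]
        field_simp
      · simp [diagonal_apply_ne _ e]
  obtain ⟨N, q, hq⟩ := k1 p
  have : q = 0 := eq_zero_of_infinite_isRoot q ((((Set.finite_singleton (0 : k)).infinite_compl).image
    (algebraMap k K).injective.injOn).mono (by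
      rintro _ ⟨s, hs, rfl⟩
      have := hq (Units.map (algebraMap k K).toMonoidHom (Units.mk0 s hs))
      rw [← io_tor, hp _ (hy _), mul_zero] at this
      exact this.symm))
  have := hq t
  rw [‹q = 0›, eval_zero] at this
  exact (mul_eq_zero.1 this).resolve_left (pow_ne_zero _ t.ne_zero)

end

variable {K : Type} [NormedField K] [IsUltrametricDist K] {ε : ℝ} {a b : K}

theorem nr_norm (h1 : ε ≤ 1) (h : ‖a - 1‖ < ε) : ‖a‖ = 1 := by
  have := IsUltrametricDist.norm_add_eq_max_of_norm_ne_norm (x := a - 1) (y := 1)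
    (by rw [norm_one]; exact (h.trans_le h1).ne)
  rwa [sub_add_cancel, norm_one, max_eq_right (h.le.trans h1)] at this

variable (K) in
/-- the units near one -/
def Nr (h0 : 0 < ε) (h1 : ε ≤ 1) : Subgroup Kˣ where
  carrier := {a | ‖(a : K) - 1‖ < ε}
  one_mem' := by simpa using h0
  mul_mem' := fun {a b} ha hb => by
    show ‖(a : K) * b - 1‖ < ε
    rw [show (a : K) * b - 1 = a * (b - 1) + (a - 1) by ring]
    refine (IsUltrametricDist.norm_add_le_max _ _).trans_lt (max_lt ?_ ha)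
    rwa [norm_mul, nr_norm h1 ha, one_mul]
  inv_mem' := fun {a} ha => by
    show ‖((a⁻¹ : Kˣ) : K) - 1‖ < ε
    rw [show ((a⁻¹ : Kˣ) : K) - 1 = -(a : K)⁻¹ * (a - 1) by simp [mul_sub]; ring, norm_mul, norm_neg,
      norm_inv, nr_norm h1 ha, inv_one, one_mul]
    exact ha

variable (K) in
theorem root1 : ∃ (ε : ℝ) (h0 : 0 < ε) (h1 : ε ≤ 1), ∀ u ∈ Nr K h0 h1, IsOfFinOrder u → u = 1 := by
  obtain ⟨ε, h0, h1, h2⟩ : ∃ ε : ℝ, 0 < ε ∧ ε ≤ 1 ∧ ∀ l : ℕ, l.Prime → (l : K) ≠ 0 →
      ε ≤ ‖(l : K)‖ := by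
    by_cases h : ∃ p : ℕ, p.Prime ∧ (p : K) ≠ 0 ∧ ‖(p : K)‖ < 1
    · obtain ⟨p, a, b, c⟩ := h
      refine ⟨_, norm_pos_iff.2 b, c.le, fun l hl _ => ?_⟩
      rcases eq_or_ne l p with rfl | e
      · rfl
      by_contra! d
      obtain ⟨u, v, e⟩ := Nat.isCoprime_iff_coprime.2 ((Nat.coprime_primes hl a).2 e)
      have := congrArg (fun z : ℤ => ‖(z : K)‖) e
      simp only [Int.cast_add, Int.cast_mul, Int.cast_natCast, Int.cast_one, norm_one] at this
      refine this.not_lt ((IsUltrametricDist.norm_add_le_max _ _).trans_lt (max_lt ?_ ?_)) <;>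
        rw [norm_mul] <;> refine mul_lt_one_of_nonneg_of_lt_one_right
          (IsUltrametricDist.norm_intCast_le_one K _) (norm_nonneg _) ?_
      exacts [d.trans c, c]
    · push Not at h
      exact ⟨1, one_pos, le_rfl, h⟩
  refine ⟨ε, h0, h1, fun u hu ho => by_contra fun e => ?_⟩
  obtain ⟨l, hl, m, hm⟩ := Nat.exists_prime_and_dvd (mt orderOf_eq_one_iff.1 e)
  have k1 : (u ^ m) ^ l = 1 := by rw [← pow_mul, mul_comm, ← hm, pow_orderOf_eq_one]
  have k2 : u ^ m ≠ 1 := fun c => by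
    have := Nat.le_of_dvd (Nat.pos_of_ne_zero fun z => ho.orderOf_pos.ne' (by rw [hm, z, mul_zero]))
      (orderOf_dvd_of_pow_eq_one c)
    have := hl.two_le
    have := ho.orderOf_pos
    nlinarith
  have k3 := pow_mem hu m
  generalize u ^ m = w at k1 k2 k3
  have k4 : (w : K) - 1 ≠ 0 := fun c => k2 (Units.ext (sub_eq_zero.1 c))
  have k5 : (w : K) ^ l = 1 := congrArg Units.val k1
  by_cases c : (l : K) = 0
  · have := Fact.mk hl
    have := (CharP.charP_iff_prime_eq_zero hl).2 c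
    exact k4 (pow_eq_zero_iff hl.ne_zero |>.1 (by rw [sub_pow_char, k5, one_pow, sub_self]))
  · have k6 : ∑ i ∈ Finset.range l, (w : K) ^ i = 0 := mul_right_cancel₀ k4 (by
      rw [geom_sum_mul, k5, sub_self, zero_mul])
    have k7 : (l : K) = -∑ i ∈ Finset.range l, ((w : K) ^ i - 1) := by
      simp [Finset.sum_sub_distrib, k6]
    refine (h2 l hl c).not_gt ?_
    rw [k7, norm_neg]
    obtain ⟨i, -, hi⟩ := IsUltrametricDist.exists_norm_finset_sum_le_of_nonempty
      (Finset.nonempty_range_iff.2 hl.ne_zero) fun i => (w : K) ^ i - 1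
    exact hi.trans_lt (pow_mem k3 i)

theorem eig_near {n : ℕ} {x : Mt n K} (hx : ∀ i j, ‖(x - 1) i j‖ < ε) {v : Fin n → K}
    (h0 : v ≠ 0) (h : x *ᵥ v = a • v) : ‖a - 1‖ < ε := by
  obtain ⟨j, hj⟩ := Function.ne_iff.1 h0
  obtain ⟨i, -, hi⟩ := Finset.exists_max_image Finset.univ (fun i => ‖v i‖) ⟨j, Finset.mem_univ j⟩
  have k1 : 0 < ‖v i‖ := (norm_pos_iff.2 hj).trans_le (hi j (Finset.mem_univ j))
  have k2 : (a - 1) * v i = ∑ l, (x - 1) i l * v l := by
    have := congrFun h i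
    rw [show ∑ l, (x - 1) i l * v l = ((x - 1) *ᵥ v) i from rfl, sub_mulVec, one_mulVec,
      Pi.sub_apply, this, sub_mul, one_mul]
    rfl
  obtain ⟨l, -, hl⟩ := IsUltrametricDist.exists_norm_finset_sum_le_of_nonempty
    ⟨j, Finset.mem_univ j⟩ fun l => (x - 1) i l * v l
  rw [← k2, norm_mul, norm_mul] at hl
  refine lt_of_mul_lt_mul_right (hl.trans_lt ?_) k1.le
  exact mul_lt_mul' (le_refl _) (hx i l) (norm_nonneg _) k1 |> fun c => by
    nlinarith [hi l (Finset.mem_univ l), norm_nonneg ((x - 1) i l)]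

end Vale.Agent.P011IM
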