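import Vale.Agent.P011IM.Kit
import Vale.Agent.P011IN.Main
import Vale.Agent.P011IT.Main

/-!
A maximal torus splits over a separable extension.
-/

set_option linter.all false

open Module Polynomial Matrix Filter Topology Vale.Agent.P092AG Vale.Agent.P092TO Vale.Agent.P092A2
open scoped Matrix.Norms.Elementwise Classical

namespace Vale.Agent.P011IM

variable {L Ω : Type} [NontriviallyNormedField L] [NontriviallyNormedField Ω] [NormedAlgebra L Ω]
  [IsAlgClosed Ω] {n : ℕ} {G : Subgroup (GL (Fin n) Ω)}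

/-- a neighbourhood of the identity is dense in the centraliser of the torus -/
theorem den [CompleteSpace L] (h : AbsSimple L G) {Φ : Mt n Ω → Ω} (hΦ : PF Φ) {ε : ℝ} (h0 : 0 < ε)
    (H : ∀ z : GL (Fin n) L, io L Ω n z ∈ Zc G → (∀ i j, ‖((io L Ω n z).1 - 1) i j‖ < ε) →
      Φ (io L Ω n z).1 = 0) {z : GL (Fin n) Ω} (hz : z ∈ Zc G) : Φ z.1 = 0 := by
  obtain ⟨y, hy⟩ := exists_reg G
  rw [hy.zc] at hz H
  obtain ⟨N, q, hq⟩ := RF.comp hΦ (rf_md (R := Ω) (y := y))
  beta_reduce at hq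
  have c1 : Tendsto (fun x : Mt n L => x.map (algebraMap L Ω)) (𝓝 1) (𝓝 1) :=
    (continuous_id.matrix_map (continuous_algebraMap L Ω)).tendsto' _ _
      (Matrix.map_one _ (map_zero _) (map_one _))
  have c2 : Tendsto (P092AL.md y) (𝓝 (1 : Mt n Ω)) (𝓝 1) := by
    have := (P092AL.contAt_md (y := y) (g := (1 : Mt n Ω))
      (by rw [P092AL.ff_one]; exact one_ne_zero)).tendsto
    rwa [show P092AL.md y (1 : Mt n Ω) = 1 from congrArg Units.val (mdG_L' (one_mem _))] at this
  have k := P092A1.denseK h q (by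
    filter_upwards [ev_fy (k := L) (y := y), c1.eventually (ev_fy (k := Ω) (y := y)),
      (c2.comp c1).eventually (Metric.ball_mem_nhds 1 h0)] with x a b c ⟨g, hg, e⟩
    subst e
    have e : mdG y (io L Ω n g) = io L Ω n (mdG y g) := by
      have u : ∀ {y} {v : GL (Fin n) L}, v ∈ Ugl y → io L Ω n v ∈ Ugl y := fun hv i j d => by
        rw [io_val, map_apply, hv i j d, one_apply, one_apply]
        split_ifs <;> simp
      conv_lhs => rw [← lmu y g, map_mul, map_mul]
      exact (lmu_eq (u (loG_mem y g)) (fun i j d => by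
        rw [io_val, map_apply, mdG_mem a i j d, map_zero]) (u (upG_mem y g))).2.1
    have e' : P092AL.md y (g.1.map (algebraMap L Ω)) = (io L Ω n (mdG y g)).1 := congrArg Units.val e
    rw [← hq _ b, e', H _ ⟨(P092A1.nice_pts h).cell.md ((Y_pts h.closed).ge hy.1) hg a,
      e ▸ mdG_mem b⟩ fun i j => ?_, zero_mul]
    rw [← e']
    exact (norm_entry_le_entrywise_sup_norm _).trans_lt (mem_ball_iff_norm.1 c)) z hz.1
  have f := fy_P_ne (Lgl_le_Pgl y hz.2)
  rw [← hq _ f, show P092AL.md y z.1 = z.1 from congrArg Units.val (mdG_L' hz.2)] at k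
  exact (mul_eq_zero.1 k).resolve_right (pow_ne_zero _ f)

variable {z : GL (Fin n) Ω} {i : Fin n} {c : Ω}

omit [IsAlgClosed Ω] in
theorem map_self {m : Type} (x : Matrix m m Ω) : x.map (algebraMap Ω Ω) = x := rfl

omit [IsAlgClosed Ω] in
theorem pf_bk (i : Fin n) (a b : Bk G i) : PF fun x : Mt n Ω => bk G i x a b := PF.entry _ _

omit [IsAlgClosed Ω] in
theorem pf_pow {m : Type} [Fintype m] [DecidableEq m] {T : Mt n Ω → Matrix m m Ω}
    (h : ∀ a b, PF fun x => T x a b) (d : ℕ) : ∀ a b, PF fun x => (T x ^ d) a b := by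
  induction d with
  | zero => exact fun a b => by simpa only [pow_zero] using PF.const _
  | succ d ih =>
    intro a b
    simp only [pow_succ, mul_apply]
    exact PF.sum _ fun l _ => (ih a l).mul (h l b)

theorem single (hz : z ∈ Zc G) (h : ∀ c' : Ω, Eig {j | Sim G i j} z.1 c' → c' = c) :
    (bk G i z.1).det = c ^ Fintype.card (Bk G i) ∧ (bk G i z.1 ^ Fintype.card (Bk G i) -
      (bk G i z.1).det • (1 : Matrix _ _ Ω)) ^ Fintype.card (Bk G i) = 0 := by
  set B := bk G i z.1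
  have h2 := (IsAlgClosed.splits B.charpoly).natDegree_eq_card_roots
  rw [charpoly_natDegree_eq_dim] at h2
  have h3 : B.charpoly.roots = Multiset.replicate (Fintype.card (Bk G i)) c :=
    Multiset.eq_replicate.2 ⟨h2.symm, fun b hb =>
      h b (eig_of_root (K := Ω) hz (isRoot_of_mem_roots hb))⟩
  have h4 : B.det = c ^ Fintype.card (Bk G i) := by
    rw [det_eq_prod_roots_charpoly, h3, Multiset.prod_replicate]
  have h5 : B.charpoly = (X - C c) ^ Fintype.card (Bk G i) := by
    rw [(IsAlgClosed.splits B.charpoly).eq_prod_roots_of_monic B.charpoly_monic, h3,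
      Multiset.map_replicate, Multiset.prod_replicate]
  refine ⟨h4, ?_⟩
  obtain ⟨r, hr⟩ := pow_dvd_pow_of_dvd (sub_dvd_pow_sub_pow (X : Polynomial Ω) (C c) (Fintype.card (Bk G i)))
    (Fintype.card (Bk G i))
  have := congrArg (aeval B) hr
  rw [map_mul, ← h5, aeval_self_charpoly, zero_mul] at this
  rw [← this, h4]
  simp [Algebra.algebraMap_eq_smul_one, _root_.smul_pow]

omit [IsAlgClosed Ω] in
theorem pow_eq (h : Eig {j | Sim G i j} z.1 c) (H : (bk G i z.1 ^ Fintype.card (Bk G i) -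
      (bk G i z.1).det • (1 : Matrix _ _ Ω)) ^ Fintype.card (Bk G i) = 0) :
    c ^ Fintype.card (Bk G i) = (bk G i z.1).det := by
  obtain ⟨v, h0, h1, h2⟩ := h
  let w : Bk G i → Ω := fun a => v a
  have k1 : bk G i z.1 *ᵥ w = c • w := funext fun a => by
    refine Eq.trans ?_ (congrFun h2 a)
    exact (sum_bk (G := G) (i := i) (fun j => z.1 a j * v j) fun j hj =>
      not_not.1 fun e => right_ne_zero_of_mul hj (h1 j e)).symm
  have k2 : ∀ (B : Matrix (Bk G i) (Bk G i) Ω) (c : Ω) (d : ℕ), B *ᵥ w = c • w →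
      (B ^ d) *ᵥ w = c ^ d • w := fun B c d e => by
    induction d with
    | zero => simp
    | succ d ih => rw [pow_succ, ← mulVec_mulVec, e, mulVec_smul, ih, smul_smul, pow_succ']
  have k3 := k2 (bk G i z.1 ^ Fintype.card (Bk G i) - (bk G i z.1).det • (1 : Matrix _ _ Ω)) (c ^ Fintype.card (Bk G i) - (bk G i z.1).det) (Fintype.card (Bk G i))
    (by rw [sub_mulVec, k2 _ _ _ k1, smul_mulVec, one_mulVec, sub_smul])
  rw [H, zero_mulVec, eq_comm, smul_eq_zero] at k3
  obtain ⟨j, hj⟩ := Function.ne_iff.1 h0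
  refine sub_eq_zero.1 (pow_eq_zero_iff Fintype.card_ne_zero |>.1 (k3.resolve_right fun e => hj ?_))
  exact congrFun e ⟨j, not_not.1 fun d => hj (h1 j d)⟩

theorem ex_eig (hz : z ∈ Zc G) (i : Fin n) : ∃ c : Ωˣ, Eig {j | Sim G i j} z.1 (c : Ω) := by
  obtain ⟨c, hc⟩ := IsAlgClosed.exists_root (bk G i z.1).charpoly (by
    rw [charpoly_degree_eq_dim]
    exact_mod_cast Fintype.card_ne_zero)
  have := eig_of_root (K := Ω) hz hc
  exact ⟨Units.mk0 c (eig_ne this), this⟩

theorem max_of [IsUltrametricDist Ω] [CompleteSpace L] (h : AbsSimple L G)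
    (H : ∀ z : GL (Fin n) L, io L Ω n z ∈ Zc G → ∀ (ι : Type) [Fintype ι] (cl : ι → Fin n)
      (c : ι → Ωˣ) (m : ι → ℤ), (∀ a, Eig {j | Sim G (cl a) j} (io L Ω n z).1 (c a : Ω)) →
      (∀ y ∈ Y G, ∑ a, m a * y (cl a) = 0) → IsOfFinOrder (∏ a, c a ^ m a)) : Max Ω G := by
  obtain ⟨ε, h0, h1, hε⟩ := root1 Ω
  have H1 : ∀ z : GL (Fin n) L, io L Ω n z ∈ Zc G → (∀ i j, ‖((io L Ω n z).1 - 1) i j‖ < ε) →
      ∀ (ι : Type) [Fintype ι] (cl : ι → Fin n) (c : ι → Ωˣ) (m : ι → ℤ),
      (∀ a, Eig {j | Sim G (cl a) j} (io L Ω n z).1 (c a : Ω)) →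
      (∀ y ∈ Y G, ∑ a, m a * y (cl a) = 0) → ∏ a, c a ^ m a = 1 := fun z hz hn ι _ cl c m hc hm =>
    hε _ (prod_mem fun a _ => zpow_mem (by
      obtain ⟨v, a1, -, a2⟩ := hc a
      exact eig_near hn a1 a2) _) (H z hz ι cl c m hc hm)
  have H2 : ∀ z : GL (Fin n) L, io L Ω n z ∈ Zc G → (∀ i j, ‖((io L Ω n z).1 - 1) i j‖ < ε) →
      ∀ (i : Fin n) (c : Ωˣ), Eig {j | Sim G i j} (io L Ω n z).1 (c : Ω) →
      ∀ c' : Ω, Eig {j | Sim G i j} (io L Ω n z).1 c' → c' = c := fun z hz hn i c hc c' hc' => by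
    have := H1 z hz hn (Fin 2) (fun _ => i) ![Units.mk0 c' (eig_ne hc'), c] ![1, -1]
      (Fin.forall_fin_two.2 ⟨hc', hc⟩) (fun y _ => by simp)
    simp only [Fin.prod_univ_two, cons_val_zero, cons_val_one, zpow_one, _root_.zpow_neg,
      mul_inv_eq_one] at this
    exact congrArg Units.val this
  intro z hz
  refine ⟨nu G z, span_of_orth _ _ fun m hm => ?_, fun i c hc => ?_⟩
  · let D : ℕ := ∏ j, Fintype.card (Bk G j)
    have hD : ∀ j, ∃ e, D = Fintype.card (Bk G j) * e := fun j =>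
      Finset.dvd_prod_of_mem _ (Finset.mem_univ j)
    choose e he using hD
    have k := den h (Φ := fun x => ∏ j, (bk G j x).det ^ (e j * (m j).toNat) -
        ∏ j, (bk G j x).det ^ (e j * (-m j).toNat))
      ((PF.prod _ fun j _ => (PF.det (pf_bk j)).pow _).sub
        (PF.prod _ fun j _ => (PF.det (pf_bk j)).pow _)) h0 (fun w hw hn => by
        choose c hc using ex_eig hw
        have a := H1 w hw hn (Fin n) id c m hc hm
        have b : ∏ j, c j ^ (m j).toNat = ∏ j, c j ^ (-m j).toNat := by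
          rw [← div_eq_one, ← Finset.prod_div_distrib, ← a]
          refine Finset.prod_congr rfl fun j _ => ?_
          rw [← zpow_natCast, ← zpow_natCast, div_eq_mul_inv, ← _root_.zpow_sub, Int.toNat_sub_toNat_neg]
        have d := congrArg (fun u : Ωˣ => (u : Ω) ^ D) b
        simp only [Units.coe_prod, Units.val_pow_eq_pow_val, ← Finset.prod_pow, ← pow_mul] at d
        simp only [fun j => (single hw (H2 w hw hn j (c j) (hc j))).1, ← pow_mul, ← mul_assoc, ← he,
          mul_comm D, d, sub_self]) hz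
    have k2 := congrArg (fun a => Real.log ‖a‖) (sub_eq_zero.1 k)
    simp only [norm_prod, norm_pow] at k2
    rw [Real.log_prod fun j _ => pow_ne_zero _ (norm_ne_zero_iff.2 (det_bk_ne hz)),
      Real.log_prod fun j _ => pow_ne_zero _ (norm_ne_zero_iff.2 (det_bk_ne hz)), ← sub_eq_zero,
      ← Finset.sum_sub_distrib] at k2
    have hD : (D : ℝ) ≠ 0 := Nat.cast_ne_zero.2 (Finset.prod_ne_zero_iff.2 fun j _ =>
      Fintype.card_ne_zero)
    refine mul_left_cancel₀ hD (Eq.trans ?_ (k2.trans (mul_zero _).symm))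
    rw [Finset.mul_sum]
    refine Finset.sum_congr rfl fun j _ => ?_
    have a : (m j : ℝ) = (m j).toNat - (-m j).toNat := by
      exact_mod_cast (Int.toNat_sub_toNat_neg (m j)).symm
    have := card_bk (G := G) (i := j)
    rw [Real.log_pow, Real.log_pow, he j, nu, a]
    simp only [Int.toNat_natCast, Nat.cast_mul]
    field_simp
  · have k : (bk G i z.1 ^ Fintype.card (Bk G i) -
        (bk G i z.1).det • (1 : Matrix _ _ Ω)) ^ Fintype.card (Bk G i) = 0 :=
      Matrix.ext fun a b => den h (Φ := fun x => ((bk G i x ^ Fintype.card (Bk G i) -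
        (bk G i x).det • (1 : Matrix _ _ Ω)) ^ Fintype.card (Bk G i) : Matrix _ _ Ω) a b)
        (pf_pow (fun a b => (pf_pow (pf_bk i) _ a b).sub
          ((PF.det (pf_bk i)).mul (PF.const _))) _ a b) h0 (fun w hw hn => by
          obtain ⟨c, hc⟩ := ex_eig hw i
          rw [(single hw (H2 w hw hn i c hc)).2]
          rfl) hz
    rw [nu, ← pow_eq hc k, norm_pow, Real.log_pow, mul_div_cancel_left₀ _ card_bk]

theorem maxs_of (ext : P011I.EXT) (upf : P011I.UPF) : P011I.MAXS := by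
  intro F Ω _ _ _ _ _ _ _ _ n G hG
  let K := separableClosure F Ω
  have : Infinite K := .of_injective _ (algebraMap F K).injective
  have hb : BddAbove (Set.range fun c => finrank ℝ (YR (cj c (pts K G)))) :=
    ⟨_, by rintro _ ⟨c, rfl⟩; exact Submodule.finrank_le _⟩
  obtain ⟨c, hc⟩ := Nat.sSup_mem (Set.range_nonempty _) hb
  have s1 : ∀ (c : GL (Fin n) K) i j, IsSeparable F ((io K Ω n c).1 i j) := fun c i j => (c.1 i j).2
  refine ⟨io K Ω n c, s1 c, ?_⟩
  obtain ⟨L, _, _, _, _, _, _, -, -, a1, a2⟩ := ext F Ω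
    (Finset.univ.image fun e : Fin n × Fin n => (io K Ω n c).1 e.1 e.2)
  have := a2 (Finset.forall_mem_image.2 fun e _ => s1 c e.1 e.2)
  choose d hd using fun i j => a1 _ (Finset.mem_image_of_mem _ (Finset.mem_univ (i, j)))
  have e0 : (of d).map (algebraMap L Ω) = (io K Ω n c).1 := Matrix.ext hd
  have e1 : io L Ω n (GeneralLinearGroup.mkOfDetNeZero (of d) fun e => (io K Ω n c).det_ne_zero (by
    rw [← e0, ← RingHom.mapMatrix_apply, ← RingHom.map_det, e, map_zero])) = io K Ω n c :=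
    Units.ext e0
  have h1 : AbsSimple L (cj (io K Ω n c) G) := e1 ▸ ((upf.1 F L Ω n G hG).2.1 _).1
  have h2 := ((upf.1 F K Ω n G hG).2.1 c).2
  have h3 := Y_pts (k := K) h1.closed
  refine max_of h1 fun z hz ι _ cl u m hu hm => ?_
  let f : L →+* K := (algebraMap L Ω).codRestrict K fun x =>
    (Algebra.IsSeparable.isSeparable F x).map (IsScalarTower.toAlgHom F L Ω) (algebraMap L Ω).injective
  have e2 : io K Ω n (GeneralLinearGroup.map f z) = io L Ω n z := Units.ext rfl
  refine tors (z := GeneralLinearGroup.map f z) (zcl_pts h1.closed) (fun d => ?_)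
    (mem_Zc.2 ⟨(congrArg (· ∈ cj (io K Ω n c) G) e2).mpr (mem_Zc.1 hz).1, fun y hy i j e => Subtype.ext
      ((mem_Zc.1 hz).2 y (h3.le hy) i j e)⟩) cl u m (fun a => ?_) (h3 ▸ hm)
  · rw [h2, cj_cj]
    exact (le_csSup hb (Set.mem_range_self _)).trans hc.ge
  · obtain ⟨v, b1, b2, b3⟩ := hu a
    exact ⟨v, b1, fun j e => b2 j fun s => e fun y hy => s y (h3.le hy), b3⟩

theorem maxs : P011I.MAXS := maxs_of P011IN.ext P011IT.upf

end Vale.Agent.P011IM
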